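import Vale.Agent.P193.MathlibUsed

namespace Vale.Agent.P193

/-- A code for a finite presentation: `(n, R)` stands for the group with generators
`x 0, ..., x (n - 1)` and the finite list `R` of relators. A relator is a word, i.e. a list of
letters; the letter `(i, true)` is `x i` and the letter `(i, false)` is the inverse of `x i`
(letters with `i ≥ n` are read as the identity). -/
abbrev Presentation : Type := ℕ × List (List (ℕ × Bool))

/-- The homomorphism from the free group on `x 0, x 1, ...` to the free group on
`x 0, ..., x (n - 1)` which deletes all `x i` with `i ≥ n`. -/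
def restrict (n : ℕ) : FreeGroup ℕ →* FreeGroup (Fin n) :=
  FreeGroup.lift fun i => if h : i < n then FreeGroup.of ⟨i, h⟩ else 1

/-- The set of relators of a coded presentation. -/
def relators (P : Presentation) : Set (FreeGroup (Fin P.1)) :=
  {r | ∃ w ∈ P.2, r = restrict P.1 (FreeGroup.mk w)}

/-- The finitely presented group given by a code. -/
abbrev PGroup (P : Presentation) : Type := PresentedGroup (relators P)

/-- `G` is generated by finitely many elements `g 0, ..., g (k - 1)`, and there is an algorithm
which decides whether a word in these generators and their inverses is trivial in `G`. -/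
def DecidableWordProblem (G : Type) [Group G] : Prop :=
  ∃ (k : ℕ) (g : Fin k → G), Subgroup.closure (Set.range g) = ⊤ ∧
    ComputablePred fun w : List (Fin k × Bool) => FreeGroup.lift g (FreeGroup.mk w) = 1

/-- `G` embeds in `H`. -/
def Embeds (G H : Type) [Group G] [Group H] : Prop :=
  ∃ f : G →* H, Function.Injective f

/-- The class of `Sigma^0_2` sets of codes of finite presentations. -/
def IsSigma2 (S : Set Presentation) : Prop :=
  ∃ R : Presentation × ℕ × ℕ → Prop, ComputablePred R ∧
    ∀ P, P ∈ S ↔ ∃ x, ∀ y, R (P, x, y)

/-- The class of `Pi^0_2` sets of codes of finite presentations. -/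
def IsPi2 (S : Set Presentation) : Prop :=
  ∃ R : Presentation × ℕ × ℕ → Prop, ComputablePred R ∧
    ∀ P, P ∈ S ↔ ∀ x, ∃ y, R (P, x, y)

/-- The Boone-Higman conjecture. -/
def BooneHigman : Prop :=
  ∀ (G : Type) [Group G], DecidableWordProblem G →
    ∃ (S : Type) (_ : Group S), Group.IsFinitelyPresented S ∧ IsSimpleGroup S ∧ Embeds G S

end Vale.Agent.P193
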