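import Mathlib.Algebra.Order.Ring.Star
import Mathlib.Algebra.RingQuot
import Mathlib.Computability.Reduce
import Mathlib.Computability.TuringMachine.ToPartrec
import Mathlib.Data.Finite.Vector
import Mathlib.Data.Int.Star
import Mathlib.GroupTheory.FinitelyPresentedGroup
import Mathlib.GroupTheory.FreeGroup.Reduce
import Mathlib.GroupTheory.Perm.ClosureSwap
import Mathlib.GroupTheory.ResiduallyFinite
import Mathlib.LinearAlgebra.Matrix.Swap
import Mathlib.LinearAlgebra.Matrix.ZPow
import Mathlib.Order.CompletePartialOrder
import Mathlib.RingTheory.Flat.TorsionFree
import Mathlib.RingTheory.SimpleRing.Principal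
import Mathlib.Tactic

/-! The part of Mathlib that the development of this folder uses. -/
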